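import Mathlib

/-!
# Basic Fourier analysis on the Boolean cube `ι → Bool`

Points of the cube `{-1,1}^ι` are functions `x : ι → Bool`, the coordinate `x i` being read as the
sign `sgn (x i)` (`true ↦ -1`, `false ↦ 1`).
-/

namespace Vale.Agent.H13.GS

open Finset

/-- the sign of a Boolean coordinate: `true ↦ -1`, `false ↦ 1` -/
def sgn (b : Bool) : ℝ := if b then -1 else 1

@[simp] lemma sgn_true : sgn true = -1 := rfl
@[simp] lemma sgn_false : sgn false = 1 := rfl

lemma sgn_not (b : Bool) : sgn (!b) = - sgn b := by cases b <;> simp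

lemma sgn_mul_self (b : Bool) : sgn b * sgn b = 1 := by cases b <;> simp

lemma sgn_eq_ite (b : Bool) : sgn b = if b then (-1 : ℝ) else 1 := rfl

section general

variable {ι : Type*} [Fintype ι] [DecidableEq ι]

/-- the character `χ_S(x) = ∏_{i ∈ S} x_i` -/
def chi (S : Finset ι) (x : ι → Bool) : ℝ := ∏ i ∈ S, sgn (x i)

/-- the linear form `x_1 + ... + x_n` -/
def lin (x : ι → Bool) : ℝ := ∑ i, sgn (x i)

/-- flipping coordinate `j` -/
def flip (j : ι) (x : ι → Bool) : ι → Bool := Function.update x j (!x j)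

omit [Fintype ι] in
lemma flip_flip (j : ι) (x : ι → Bool) : flip j (flip j x) = x := by
  funext i
  by_cases h : i = j
  · subst h; simp [flip]
  · simp [flip, h]

/-- flipping a coordinate as an equivalence of the cube -/
def flipEquiv (j : ι) : (ι → Bool) ≃ (ι → Bool) where
  toFun := flip j
  invFun := flip j
  left_inv := flip_flip j
  right_inv := flip_flip j

lemma sum_flip (j : ι) (G : (ι → Bool) → ℝ) : ∑ x, G (flip j x) = ∑ x, G x :=
  Fintype.sum_equiv (flipEquiv j) _ _ (fun _ => rfl)

/-- a function that changes sign under the flip of coordinate `j` sums to zero -/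
lemma sum_eq_zero_of_flip (j : ι) (G : (ι → Bool) → ℝ) (h : ∀ x, G (flip j x) = - G x) :
    ∑ x, G x = 0 := by
  have h1 : ∑ x, G (flip j x) = ∑ x, G x := sum_flip j G
  have h2 : ∑ x, G (flip j x) = - ∑ x, G x := by
    rw [← Finset.sum_neg_distrib]
    exact Finset.sum_congr rfl (fun x _ => h x)
  linarith

omit [Fintype ι] in
lemma chi_flip_mem {S : Finset ι} {j : ι} (hj : j ∈ S) (x : ι → Bool) :
    chi S (flip j x) = - chi S x := by
  unfold chi
  rw [← Finset.mul_prod_erase S _ hj, ← Finset.mul_prod_erase S (fun i => sgn (x i)) hj]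
  have h1 : sgn (flip j x j) = - sgn (x j) := by simp [flip, sgn_not]
  have h2 : ∏ i ∈ S.erase j, sgn (flip j x i) = ∏ i ∈ S.erase j, sgn (x i) := by
    apply Finset.prod_congr rfl
    intro i hi
    have : i ≠ j := Finset.ne_of_mem_erase hi
    simp [flip, this]
  rw [h1, h2]; ring

omit [Fintype ι] in
lemma chi_flip_not_mem {S : Finset ι} {j : ι} (hj : j ∉ S) (x : ι → Bool) :
    chi S (flip j x) = chi S x := by
  unfold chi
  apply Finset.prod_congr rfl
  intro i hi
  have : i ≠ j := fun h => hj (h ▸ hi)
  simp [flip, this]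

omit [Fintype ι] [DecidableEq ι] in
lemma chi_sq (S : Finset ι) (x : ι → Bool) : chi S x * chi S x = 1 := by
  unfold chi
  rw [← Finset.prod_mul_distrib]
  exact Finset.prod_eq_one (fun i _ => sgn_mul_self _)

omit [Fintype ι] [DecidableEq ι] in
@[simp] lemma chi_empty (x : ι → Bool) : chi (∅ : Finset ι) x = 1 := by simp [chi]

omit [Fintype ι] [DecidableEq ι] in
@[simp] lemma chi_singleton (i : ι) (x : ι → Bool) : chi {i} x = sgn (x i) := by simp [chi]

/-- orthogonality of characters -/
lemma sum_chi_mul_chi (S T : Finset ι) :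
    ∑ x : ι → Bool, chi T x * chi S x = if T = S then (2 : ℝ) ^ Fintype.card ι else 0 := by
  split_ifs with h
  · subst h
    simp [chi_sq]
  · -- pick a coordinate in the symmetric difference
    have : ∃ j, (j ∈ T ∧ j ∉ S) ∨ (j ∉ T ∧ j ∈ S) := by
      by_contra hcon
      apply h
      ext j
      constructor
      · intro hj
        by_contra hjS
        exact hcon ⟨j, Or.inl ⟨hj, hjS⟩⟩
      · intro hj
        by_contra hjT
        exact hcon ⟨j, Or.inr ⟨hjT, hj⟩⟩
    obtain ⟨j, hj⟩ := this
    apply sum_eq_zero_of_flip j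
    intro x
    rcases hj with ⟨h1, h2⟩ | ⟨h1, h2⟩
    · rw [chi_flip_mem h1, chi_flip_not_mem h2]; ring
    · rw [chi_flip_not_mem h1, chi_flip_mem h2]; ring

/-- Fourier coefficients (unnormalised) of a linear combination of characters listed in `L` -/
lemma sum_listsum_mul_chi (L : List (Finset ι)) (S : Finset ι) :
    ∑ x : ι → Bool, (L.map (fun T => chi T x)).sum * chi S x
      = (2 : ℝ) ^ Fintype.card ι * (L.count S : ℝ) := by
  induction L with
  | nil => simp
  | cons T L ih =>
    simp only [List.map_cons, List.sum_cons, add_mul, Finset.sum_add_distrib, ih, sum_chi_mul_chi,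
      List.count_cons]
    by_cases h : T = S
    · simp [h]; ring
    · simp [h]

end general

section reindex

variable {ι κ : Type*} [Fintype ι] [Fintype κ] [DecidableEq ι] [DecidableEq κ]

/-- reindexing the cube along an equivalence of index types -/
lemma sum_comp_equiv (e : ι ≃ κ) (G : (ι → Bool) → ℝ) :
    ∑ x : κ → Bool, G (x ∘ e) = ∑ x : ι → Bool, G x :=
  Fintype.sum_equiv (Equiv.arrowCongr e (Equiv.refl Bool)).symm _ _ (fun _ => rfl)

/-- the cube over a sum type is a product of cubes -/
lemma sum_sumElim {α β : Type*} [Fintype α] [Fintype β] [DecidableEq α] [DecidableEq β] (G : (α ⊕ β → Bool) → ℝ) :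
    ∑ z : α ⊕ β → Bool, G z = ∑ y : α → Bool, ∑ x : β → Bool, G (Sum.elim y x) := by
  rw [← Fintype.sum_prod_type']
  exact Fintype.sum_equiv (Equiv.sumArrowEquivProdArrow α β Bool) _ _ (fun z => by
    congr 1
    funext i
    cases i <;> rfl)

end reindex

end Vale.Agent.H13.GS
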