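import Vale.Agent.H13.GSGlue

/-!
# Counting balanced sign vectors, and the final assembly
-/

namespace Vale.Agent.H13.GS

open Finset

lemma sgn_eq_sub (b : Bool) : sgn b = 1 - 2 * (if b = true then (1 : ℝ) else 0) := by
  cases b <;> norm_num

lemma lin_eq_card (t : ℕ) (y : Fin t → Bool) :
    lin y = (t : ℝ) - 2 * ((Finset.univ.filter (fun i => y i = true)).card : ℝ) := by
  unfold lin
  simp only [sgn_eq_sub]
  rw [Finset.sum_sub_distrib, ← Finset.mul_sum, Finset.sum_boole]
  simp

lemma card_filter_card_true (t k : ℕ) :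
    (Finset.univ.filter (fun y : Fin t → Bool =>
      (Finset.univ.filter (fun i => y i = true)).card = k)).card = t.choose k := by
  have h : (Finset.powersetCard k (Finset.univ : Finset (Fin t))).card = t.choose k := by
    rw [Finset.card_powersetCard]; simp
  rw [← h]
  apply Finset.card_nbij' (fun y => Finset.univ.filter (fun i => y i = true))
    (fun s => fun i => decide (i ∈ s))
  · intro y hy
    simp only [Finset.mem_coe, Finset.mem_filter, Finset.mem_univ, true_and] at hy
    simp [Finset.mem_powersetCard, hy]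
  · intro s hs
    simp only [Finset.mem_coe, Finset.mem_powersetCard] at hs
    simp [hs.2]
  · intro y _
    funext i
    simp
  · intro s _
    ext i
    simp

lemma card_lin_zero (t : ℕ) (ht : Even t) :
    (Finset.univ.filter (fun y : Fin t → Bool => lin y = 0)).card = t.choose (t / 2) := by
  rw [← card_filter_card_true t (t / 2)]
  congr 1
  apply Finset.filter_congr
  intro y _
  rw [lin_eq_card]
  obtain ⟨m, rfl⟩ := ht
  have hm : (m + m) / 2 = m := by omega
  rw [hm]
  constructor
  · intro h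
    have h' : ((Finset.univ.filter (fun i => y i = true)).card : ℝ) = (m : ℝ) := by
      push_cast at h; linarith
    exact_mod_cast h'
  · intro h
    rw [h]; push_cast; ring

/-- the equivalence used to put the glued function on `Fin (t + 7)` -/
def bigEquiv (t : ℕ) : Fin t ⊕ (Fin 4 ⊕ Fin 3) ≃ Fin (t + 7) :=
  (Equiv.sumCongr (Equiv.refl (Fin t)) (finSumFinEquiv (m := 4) (n := 3))).trans
    (finSumFinEquiv (m := t) (n := 7))

/-- the final function on `Fin (t + 7) → Bool` -/
noncomputable def bigF (t : ℕ) (x : Fin (t + 7) → Bool) : ℝ := glue t (x ∘ bigEquiv t)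

lemma bigF_bool (t : ℕ) (x : Fin (t + 7) → Bool) : bigF t x = 1 ∨ bigF t x = -1 := glue_bool t _

lemma bigF_deg (t : ℕ) (S : Finset (Fin (t + 7))) (hS : t + 4 < S.card) :
    ∑ x, bigF t x * chi S x = 0 := by
  unfold bigF
  rw [sum_comp_mul_chi]
  apply glue_deg
  simpa using hS

lemma bigF_lin (t : ℕ) :
    ∑ x, bigF t x * lin x = 8 * ∑ z : Fin (t + 4) → Bool, |lin z|
      + 32 * ((Finset.univ.filter (fun y : Fin t → Bool => lin y = 0)).card : ℝ) := by
  unfold bigF
  rw [sum_comp_mul_lin, glue_lin, sum_comp_abs_lin (finSumFinEquiv (m := t) (n := 4))]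

/-- main theorem in terms of `chi` and `lin` -/
theorem main_even (t : ℕ) (ht : Even t) :
    (∀ x, bigF t x = 1 ∨ bigF t x = -1) ∧
    (∀ S : Finset (Fin (t + 7)), t + 4 < S.card → ∑ x, bigF t x * chi S x = 0) ∧
    (∑ x, bigF t x * lin x) / 2 ^ (t + 7)
      = (∑ z : Fin (t + 4) → Bool, |lin z|) / 2 ^ (t + 4) + (t.choose (t / 2) : ℝ) / 2 ^ (t + 2) := by
  refine ⟨bigF_bool t, bigF_deg t, ?_⟩
  rw [bigF_lin, card_lin_zero t ht]
  have h1 : (2 : ℝ) ^ (t + 7) = 8 * 2 ^ (t + 4) := by rw [pow_add, pow_add]; norm_num; ring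
  have h2 : (2 : ℝ) ^ (t + 7) = 32 * 2 ^ (t + 2) := by rw [pow_add, pow_add]; norm_num; ring
  have hp4 : (2 : ℝ) ^ (t + 4) ≠ 0 := by positivity
  have hp2 : (2 : ℝ) ^ (t + 2) ≠ 0 := by positivity
  rw [add_div]
  congr 1
  · rw [h1]; field_simp
  · rw [h2]; field_simp

end Vale.Agent.H13.GS
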