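import Vale.Agent.H13.GSSeven

/-!
# Gluing: a decision tree whose leaves are thresholds of four variables, or `f7`
-/

namespace Vale.Agent.H13.GS

open Finset

section transfer

variable {ι κ : Type*} [Fintype ι] [Fintype κ] [DecidableEq ι] [DecidableEq κ]

omit [Fintype ι] [Fintype κ] [DecidableEq ι] [DecidableEq κ] in
lemma chi_comp_equiv (e : ι ≃ κ) (S : Finset κ) (x : κ → Bool) :
    chi (S.map e.symm.toEmbedding) (x ∘ e) = chi S x := by
  simp [chi, Finset.prod_map]

omit [DecidableEq ι] [DecidableEq κ] in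
lemma lin_comp_equiv (e : ι ≃ κ) (x : κ → Bool) : lin (x ∘ e) = lin x := by
  unfold lin
  exact Equiv.sum_comp e (fun i => sgn (x i))

lemma sum_comp_mul_chi (e : ι ≃ κ) (F : (ι → Bool) → ℝ) (S : Finset κ) :
    ∑ x : κ → Bool, F (x ∘ e) * chi S x
      = ∑ z : ι → Bool, F z * chi (S.map e.symm.toEmbedding) z := by
  rw [← sum_comp_equiv e (fun z => F z * chi (S.map e.symm.toEmbedding) z)]
  simp only [chi_comp_equiv]

lemma sum_comp_mul_lin (e : ι ≃ κ) (F : (ι → Bool) → ℝ) :
    ∑ x : κ → Bool, F (x ∘ e) * lin x = ∑ z : ι → Bool, F z * lin z := by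
  rw [← sum_comp_equiv e (fun z => F z * lin z)]
  simp only [lin_comp_equiv]

lemma sum_comp_abs_lin (e : ι ≃ κ) :
    ∑ x : κ → Bool, |lin x| = ∑ z : ι → Bool, |lin z| := by
  rw [← sum_comp_equiv e (fun z => |lin z|)]
  simp only [lin_comp_equiv]

end transfer

section sumtype

variable {α β : Type*} [Fintype α] [Fintype β] [DecidableEq α] [DecidableEq β]

omit [Fintype α] [Fintype β] [DecidableEq α] [DecidableEq β] in
lemma chi_sumElim (S : Finset (α ⊕ β)) (y : α → Bool) (x : β → Bool) :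
    chi S (Sum.elim y x) = chi S.toLeft y * chi S.toRight x := by
  conv_lhs => rw [← Finset.toLeft_disjSum_toRight (u := S)]
  simp [chi, Finset.prod_disjSum]

omit [DecidableEq α] [DecidableEq β] in
lemma lin_sumElim (y : α → Bool) (x : β → Bool) : lin (Sum.elim y x) = lin y + lin x := by
  simp [lin, Fintype.sum_sum_type]

end sumtype

/-- peeling off the first coordinate of a cube -/
lemma sum_cube_succ {n : ℕ} (G : (Fin (n + 1) → Bool) → ℝ) :
    ∑ x, G x = ∑ x : Fin n → Bool, (G (Fin.cons false x) + G (Fin.cons true x)) := by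
  rw [← (Fin.consEquiv (fun _ => Bool)).sum_comp G, Fintype.sum_prod_type, Fintype.sum_bool,
    Finset.sum_add_distrib, add_comm]
  rfl

lemma sum_abs_lin4 : ∑ u : Fin 4 → Bool, |lin u| = 24 := by
  rw [sum_cube_succ, sum_cube_succ, sum_cube_succ, sum_cube_succ]
  simp [lin, Fin.sum_univ_succ]
  norm_num

/-- `f7` transported to the index type `Fin 4 ⊕ Fin 3` -/
noncomputable def g7 (w : Fin 4 ⊕ Fin 3 → Bool) : ℝ :=
  f7 (w ∘ (finSumFinEquiv (m := 4) (n := 3)).symm)

lemma g7_bool (w : Fin 4 ⊕ Fin 3 → Bool) : g7 w = 1 ∨ g7 w = -1 := f7_bool _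

lemma g7_deg (S : Finset (Fin 4 ⊕ Fin 3)) (hS : 5 ≤ S.card) : ∑ w, g7 w * chi S w = 0 := by
  unfold g7
  rw [sum_comp_mul_chi]
  apply f7_deg
  simpa using hS

lemma g7_lin : ∑ w, g7 w * lin w = 224 := by
  unfold g7
  rw [sum_comp_mul_lin]
  exact f7_lin

/-- threshold leaf: the sign of `c + w_1 + w_2 + w_3 + w_4` (ties broken as `+1`);
it ignores the last three coordinates -/
noncomputable def thr (c : ℝ) (w : Fin 4 ⊕ Fin 3 → Bool) : ℝ :=
  if 0 ≤ c + lin (w ∘ Sum.inl) then 1 else -1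

lemma thr_bool (c : ℝ) (w : Fin 4 ⊕ Fin 3 → Bool) : thr c w = 1 ∨ thr c w = -1 := by
  unfold thr; split_ifs <;> simp

lemma flip_inr_comp_inl (j : Fin 3) (w : Fin 4 ⊕ Fin 3 → Bool) :
    (flip (Sum.inr j) w) ∘ Sum.inl = w ∘ Sum.inl := by
  funext i
  simp [flip]

lemma thr_flip (c : ℝ) (j : Fin 3) (w : Fin 4 ⊕ Fin 3 → Bool) :
    thr c (flip (Sum.inr j) w) = thr c w := by
  unfold thr
  rw [flip_inr_comp_inl]

lemma thr_deg (c : ℝ) (S : Finset (Fin 4 ⊕ Fin 3)) (hS : 5 ≤ S.card) :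
    ∑ w, thr c w * chi S w = 0 := by
  have h1 : S.toLeft.card ≤ 4 := by
    have := Finset.card_le_univ S.toLeft
    simpa using this
  have h2 := Finset.card_toLeft_add_card_toRight (u := S)
  have h3 : 0 < S.toRight.card := by omega
  obtain ⟨j, hj⟩ := Finset.card_pos.mp h3
  have hj' : Sum.inr j ∈ S := by simpa using hj
  apply sum_eq_zero_of_flip (Sum.inr j)
  intro w
  rw [thr_flip, chi_flip_mem hj']
  ring

lemma thr_mul (c : ℝ) (w : Fin 4 ⊕ Fin 3 → Bool) :
    thr c w * (c + lin (w ∘ Sum.inl)) = |c + lin (w ∘ Sum.inl)| := by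
  unfold thr
  split_ifs with h
  · rw [abs_of_nonneg h]; ring
  · rw [abs_of_neg (not_le.mp h)]; ring

lemma thr_sgn_inr (c : ℝ) (j : Fin 3) : ∑ w, thr c w * sgn (w (Sum.inr j)) = 0 := by
  apply sum_eq_zero_of_flip (Sum.inr j)
  intro w
  rw [thr_flip]
  simp [flip, sgn_not]

lemma lin_split (w : Fin 4 ⊕ Fin 3 → Bool) :
    lin w = lin (w ∘ Sum.inl) + ∑ j : Fin 3, sgn (w (Sum.inr j)) := by
  simp [lin, Fintype.sum_sum_type]

lemma sum_abs_left (c : ℝ) :
    ∑ w : Fin 4 ⊕ Fin 3 → Bool, |c + lin (w ∘ Sum.inl)| = 8 * ∑ u : Fin 4 → Bool, |c + lin u| := by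
  rw [sum_sumElim]
  simp only [Sum.elim_comp_inl, Finset.sum_const, Finset.card_univ]
  rw [Finset.mul_sum]
  apply Finset.sum_congr rfl
  intro u _
  simp

lemma thr_lin (c : ℝ) :
    ∑ w, thr c w * (c + lin w) = 8 * ∑ u : Fin 4 → Bool, |c + lin u| := by
  rw [← sum_abs_left]
  have : ∀ w : Fin 4 ⊕ Fin 3 → Bool, thr c w * (c + lin w)
      = |c + lin (w ∘ Sum.inl)| + ∑ j : Fin 3, thr c w * sgn (w (Sum.inr j)) := by
    intro w
    rw [← thr_mul, lin_split, ← Finset.mul_sum]
    ring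
  simp only [this]
  rw [Finset.sum_add_distrib, Finset.sum_comm]
  simp [thr_sgn_inr]

/-- the glued function: a decision tree on the first `t` coordinates, with leaf `g7` when their
sum is zero and a threshold leaf otherwise -/
noncomputable def glue (t : ℕ) (z : Fin t ⊕ (Fin 4 ⊕ Fin 3) → Bool) : ℝ :=
  if lin (z ∘ Sum.inl) = 0 then g7 (z ∘ Sum.inr) else thr (lin (z ∘ Sum.inl)) (z ∘ Sum.inr)

lemma glue_bool (t : ℕ) (z : Fin t ⊕ (Fin 4 ⊕ Fin 3) → Bool) : glue t z = 1 ∨ glue t z = -1 := by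
  unfold glue
  split_ifs
  · exact g7_bool _
  · exact thr_bool _ _

lemma glue_deg (t : ℕ) (S : Finset (Fin t ⊕ (Fin 4 ⊕ Fin 3))) (hS : t + 4 < S.card) :
    ∑ z, glue t z * chi S z = 0 := by
  have h1 : S.toLeft.card ≤ t := by
    have := Finset.card_le_univ S.toLeft
    simpa using this
  have h2 := Finset.card_toLeft_add_card_toRight (u := S)
  have h3 : 5 ≤ S.toRight.card := by omega
  rw [sum_sumElim]
  apply Finset.sum_eq_zero
  intro y _
  simp only [chi_sumElim, glue, Sum.elim_comp_inl, Sum.elim_comp_inr]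
  by_cases hy : lin y = 0
  · simp only [hy, if_true]
    have := g7_deg S.toRight h3
    calc ∑ w, g7 w * (chi S.toLeft y * chi S.toRight w)
        = chi S.toLeft y * ∑ w, g7 w * chi S.toRight w := by
          rw [Finset.mul_sum]; apply Finset.sum_congr rfl; intro w _; ring
      _ = 0 := by rw [this]; ring
  · simp only [hy, if_false]
    have := thr_deg (lin y) S.toRight h3
    calc ∑ w, thr (lin y) w * (chi S.toLeft y * chi S.toRight w)
        = chi S.toLeft y * ∑ w, thr (lin y) w * chi S.toRight w := by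
          rw [Finset.mul_sum]; apply Finset.sum_congr rfl; intro w _; ring
      _ = 0 := by rw [this]; ring

lemma glue_lin (t : ℕ) :
    ∑ z, glue t z * lin z = 8 * ∑ z' : Fin t ⊕ Fin 4 → Bool, |lin z'|
      + 32 * ((Finset.univ.filter (fun y : Fin t → Bool => lin y = 0)).card : ℝ) := by
  rw [sum_sumElim, sum_sumElim]
  have key : ∀ y : Fin t → Bool,
      ∑ w, glue t (Sum.elim y w) * lin (Sum.elim y w)
        = 8 * ∑ u : Fin 4 → Bool, |lin (Sum.elim y u)| + (if lin y = 0 then 32 else 0) := by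
    intro y
    simp only [lin_sumElim, glue, Sum.elim_comp_inl, Sum.elim_comp_inr]
    by_cases hy : lin y = 0
    · simp only [hy, if_true, zero_add]
      rw [g7_lin, sum_abs_lin4]; norm_num
    · simp only [hy, if_false, add_zero]
      exact thr_lin (lin y)
  simp only [key]
  rw [Finset.sum_add_distrib, ← Finset.mul_sum, Finset.sum_ite, Finset.sum_const, Finset.sum_const]
  simp
  ring

end Vale.Agent.H13.GS
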