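import Vale.Agent.H13.GSBasic

/-!
# A degree-4 Boolean function on seven variables with level-one sum 7/4
-/

namespace Vale.Agent.H13.GS

open Finset

/-- the seven singletons -/
def L1 : List (Finset (Fin 7)) := [{0}, {1}, {2}, {3}, {4}, {5}, {6}]

/-- the lines of a Fano plane on `Fin 7` (cyclic shifts of `{0,2,3}`) -/
def L3p : List (Finset (Fin 7)) :=
  [{0, 2, 3}, {1, 3, 4}, {2, 4, 5}, {3, 5, 6}, {0, 4, 6}, {0, 1, 5}, {1, 2, 6}]

/-- the 21 triples lying in neither of the two cyclic Fano planes -/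
def L3m : List (Finset (Fin 7)) :=
  [{0, 1, 2}, {1, 2, 3}, {2, 3, 4}, {3, 4, 5}, {4, 5, 6}, {0, 5, 6}, {0, 1, 6},
   {0, 1, 4}, {1, 2, 5}, {2, 3, 6}, {0, 3, 4}, {1, 4, 5}, {2, 5, 6}, {0, 3, 6},
   {0, 2, 4}, {1, 3, 5}, {2, 4, 6}, {0, 3, 5}, {1, 4, 6}, {0, 2, 5}, {1, 3, 6}]

/-- the complements of the lines of the other cyclic Fano plane (cyclic shifts of `{0,1,3}`) -/
def L4 : List (Finset (Fin 7)) :=
  [{2, 4, 5, 6}, {0, 3, 5, 6}, {0, 1, 4, 6}, {0, 1, 2, 5}, {1, 2, 3, 6}, {0, 2, 3, 4}, {1, 3, 4, 5}]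

/-- the seven-variable function, given by its Fourier expansion -/
noncomputable def f7 (x : Fin 7 → Bool) : ℝ :=
  (1 + 2 * (L1.map (fun T => chi T x)).sum + (L3p.map (fun T => chi T x)).sum
    - (L3m.map (fun T => chi T x)).sum + (L4.map (fun T => chi T x)).sum) / 8

lemma f7_bool_aux (b0 b1 b2 b3 b4 b5 b6 : Bool) :
    (1 + 2 * (sgn b0 + sgn b1 + sgn b2 + sgn b3 + sgn b4 + sgn b5 + sgn b6)
      + (sgn b0 * sgn b2 * sgn b3 + sgn b1 * sgn b3 * sgn b4 + sgn b2 * sgn b4 * sgn b5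
          + sgn b3 * sgn b5 * sgn b6 + sgn b0 * sgn b4 * sgn b6 + sgn b0 * sgn b1 * sgn b5
          + sgn b1 * sgn b2 * sgn b6)
      - (sgn b0 * sgn b1 * sgn b2 + sgn b1 * sgn b2 * sgn b3 + sgn b2 * sgn b3 * sgn b4
          + sgn b3 * sgn b4 * sgn b5 + sgn b4 * sgn b5 * sgn b6 + sgn b0 * sgn b5 * sgn b6
          + sgn b0 * sgn b1 * sgn b6 + sgn b0 * sgn b1 * sgn b4 + sgn b1 * sgn b2 * sgn b5
          + sgn b2 * sgn b3 * sgn b6 + sgn b0 * sgn b3 * sgn b4 + sgn b1 * sgn b4 * sgn b5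
          + sgn b2 * sgn b5 * sgn b6 + sgn b0 * sgn b3 * sgn b6 + sgn b0 * sgn b2 * sgn b4
          + sgn b1 * sgn b3 * sgn b5 + sgn b2 * sgn b4 * sgn b6 + sgn b0 * sgn b3 * sgn b5
          + sgn b1 * sgn b4 * sgn b6 + sgn b0 * sgn b2 * sgn b5 + sgn b1 * sgn b3 * sgn b6)
      + (sgn b2 * sgn b4 * sgn b5 * sgn b6 + sgn b0 * sgn b3 * sgn b5 * sgn b6
          + sgn b0 * sgn b1 * sgn b4 * sgn b6 + sgn b0 * sgn b1 * sgn b2 * sgn b5
          + sgn b1 * sgn b2 * sgn b3 * sgn b6 + sgn b0 * sgn b2 * sgn b3 * sgn b4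
          + sgn b1 * sgn b3 * sgn b4 * sgn b5)) / 8 = (1 : ℝ) ∨
    (1 + 2 * (sgn b0 + sgn b1 + sgn b2 + sgn b3 + sgn b4 + sgn b5 + sgn b6)
      + (sgn b0 * sgn b2 * sgn b3 + sgn b1 * sgn b3 * sgn b4 + sgn b2 * sgn b4 * sgn b5
          + sgn b3 * sgn b5 * sgn b6 + sgn b0 * sgn b4 * sgn b6 + sgn b0 * sgn b1 * sgn b5
          + sgn b1 * sgn b2 * sgn b6)
      - (sgn b0 * sgn b1 * sgn b2 + sgn b1 * sgn b2 * sgn b3 + sgn b2 * sgn b3 * sgn b4
          + sgn b3 * sgn b4 * sgn b5 + sgn b4 * sgn b5 * sgn b6 + sgn b0 * sgn b5 * sgn b6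
          + sgn b0 * sgn b1 * sgn b6 + sgn b0 * sgn b1 * sgn b4 + sgn b1 * sgn b2 * sgn b5
          + sgn b2 * sgn b3 * sgn b6 + sgn b0 * sgn b3 * sgn b4 + sgn b1 * sgn b4 * sgn b5
          + sgn b2 * sgn b5 * sgn b6 + sgn b0 * sgn b3 * sgn b6 + sgn b0 * sgn b2 * sgn b4
          + sgn b1 * sgn b3 * sgn b5 + sgn b2 * sgn b4 * sgn b6 + sgn b0 * sgn b3 * sgn b5
          + sgn b1 * sgn b4 * sgn b6 + sgn b0 * sgn b2 * sgn b5 + sgn b1 * sgn b3 * sgn b6)
      + (sgn b2 * sgn b4 * sgn b5 * sgn b6 + sgn b0 * sgn b3 * sgn b5 * sgn b6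
          + sgn b0 * sgn b1 * sgn b4 * sgn b6 + sgn b0 * sgn b1 * sgn b2 * sgn b5
          + sgn b1 * sgn b2 * sgn b3 * sgn b6 + sgn b0 * sgn b2 * sgn b3 * sgn b4
          + sgn b1 * sgn b3 * sgn b4 * sgn b5)) / 8 = (-1 : ℝ) := by
  cases b0 <;> cases b1 <;> cases b2 <;> cases b3 <;> cases b4 <;> cases b5 <;> cases b6 <;>
    norm_num [sgn]

lemma f7_eq_poly (x : Fin 7 → Bool) : f7 x =
    (1 + 2 * (sgn (x 0) + sgn (x 1) + sgn (x 2) + sgn (x 3) + sgn (x 4) + sgn (x 5) + sgn (x 6))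
      + (sgn (x 0) * sgn (x 2) * sgn (x 3) + sgn (x 1) * sgn (x 3) * sgn (x 4) + sgn (x 2) * sgn (x 4) * sgn (x 5)
          + sgn (x 3) * sgn (x 5) * sgn (x 6) + sgn (x 0) * sgn (x 4) * sgn (x 6) + sgn (x 0) * sgn (x 1) * sgn (x 5)
          + sgn (x 1) * sgn (x 2) * sgn (x 6))
      - (sgn (x 0) * sgn (x 1) * sgn (x 2) + sgn (x 1) * sgn (x 2) * sgn (x 3) + sgn (x 2) * sgn (x 3) * sgn (x 4)
          + sgn (x 3) * sgn (x 4) * sgn (x 5) + sgn (x 4) * sgn (x 5) * sgn (x 6) + sgn (x 0) * sgn (x 5) * sgn (x 6)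
          + sgn (x 0) * sgn (x 1) * sgn (x 6) + sgn (x 0) * sgn (x 1) * sgn (x 4) + sgn (x 1) * sgn (x 2) * sgn (x 5)
          + sgn (x 2) * sgn (x 3) * sgn (x 6) + sgn (x 0) * sgn (x 3) * sgn (x 4) + sgn (x 1) * sgn (x 4) * sgn (x 5)
          + sgn (x 2) * sgn (x 5) * sgn (x 6) + sgn (x 0) * sgn (x 3) * sgn (x 6) + sgn (x 0) * sgn (x 2) * sgn (x 4)
          + sgn (x 1) * sgn (x 3) * sgn (x 5) + sgn (x 2) * sgn (x 4) * sgn (x 6) + sgn (x 0) * sgn (x 3) * sgn (x 5)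
          + sgn (x 1) * sgn (x 4) * sgn (x 6) + sgn (x 0) * sgn (x 2) * sgn (x 5) + sgn (x 1) * sgn (x 3) * sgn (x 6))
      + (sgn (x 2) * sgn (x 4) * sgn (x 5) * sgn (x 6) + sgn (x 0) * sgn (x 3) * sgn (x 5) * sgn (x 6)
          + sgn (x 0) * sgn (x 1) * sgn (x 4) * sgn (x 6) + sgn (x 0) * sgn (x 1) * sgn (x 2) * sgn (x 5)
          + sgn (x 1) * sgn (x 2) * sgn (x 3) * sgn (x 6) + sgn (x 0) * sgn (x 2) * sgn (x 3) * sgn (x 4)
          + sgn (x 1) * sgn (x 3) * sgn (x 4) * sgn (x 5))) / 8 := by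
  simp only [f7, L1, L3p, L3m, L4, List.map_cons, List.map_nil, List.sum_cons, List.sum_nil, chi]
  simp
  ring

/-- `f7` is Boolean-valued -/
lemma f7_bool (x : Fin 7 → Bool) : f7 x = 1 ∨ f7 x = -1 := by
  rw [f7_eq_poly]
  exact f7_bool_aux (x 0) (x 1) (x 2) (x 3) (x 4) (x 5) (x 6)

/-- unnormalised Fourier coefficients of `f7` -/
lemma f7_sum_mul_chi (S : Finset (Fin 7)) :
    ∑ x, f7 x * chi S x = (2 : ℝ) ^ 7 * ((if (∅ : Finset (Fin 7)) = S then 1 else 0)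
      + 2 * (L1.count S : ℝ) + (L3p.count S : ℝ) - (L3m.count S : ℝ) + (L4.count S : ℝ)) / 8 := by
  have h0 := sum_chi_mul_chi S (∅ : Finset (Fin 7))
  have h1 := sum_listsum_mul_chi L1 S
  have h2 := sum_listsum_mul_chi L3p S
  have h3 := sum_listsum_mul_chi L3m S
  have h4 := sum_listsum_mul_chi L4 S
  simp only [Fintype.card_fin, chi_empty, one_mul] at h0 h1 h2 h3 h4
  have : ∀ x : Fin 7 → Bool, f7 x * chi S x =
      (chi S x + 2 * ((L1.map (fun T => chi T x)).sum * chi S x)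
        + (L3p.map (fun T => chi T x)).sum * chi S x
        - (L3m.map (fun T => chi T x)).sum * chi S x
        + (L4.map (fun T => chi T x)).sum * chi S x) / 8 := by
    intro x
    simp only [f7]
    ring
  simp only [this]
  rw [← Finset.sum_div, Finset.sum_add_distrib, Finset.sum_sub_distrib, Finset.sum_add_distrib,
    Finset.sum_add_distrib, ← Finset.mul_sum, h0, h1, h2, h3, h4]
  split_ifs <;> ring

set_option maxRecDepth 100000 in
lemma L1_card : ∀ T ∈ L1, T.card = 1 := by decide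
set_option maxRecDepth 100000 in
lemma L3p_card : ∀ T ∈ L3p, T.card = 3 := by decide
set_option maxRecDepth 100000 in
lemma L3m_card : ∀ T ∈ L3m, T.card = 3 := by decide
set_option maxRecDepth 100000 in
lemma L4_card : ∀ T ∈ L4, T.card = 4 := by decide

/-- `f7` has degree at most four -/
lemma f7_deg (S : Finset (Fin 7)) (hS : 5 ≤ S.card) : ∑ x, f7 x * chi S x = 0 := by
  rw [f7_sum_mul_chi]
  have e0 : ¬ (∅ : Finset (Fin 7)) = S := by
    intro h; rw [← h] at hS; simp at hS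
  have e1 : L1.count S = 0 := List.count_eq_zero.mpr (fun h => by have := L1_card S h; omega)
  have e2 : L3p.count S = 0 := List.count_eq_zero.mpr (fun h => by have := L3p_card S h; omega)
  have e3 : L3m.count S = 0 := List.count_eq_zero.mpr (fun h => by have := L3m_card S h; omega)
  have e4 : L4.count S = 0 := List.count_eq_zero.mpr (fun h => by have := L4_card S h; omega)
  simp [e0, e1, e2, e3, e4]

set_option maxRecDepth 100000 in
lemma L1_count_singleton : ∀ i : Fin 7, L1.count {i} = 1 := by decide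

/-- every level-one Fourier coefficient of `f7` is `1/4` -/
lemma f7_level_one (i : Fin 7) : ∑ x, f7 x * sgn (x i) = 32 := by
  have h := f7_sum_mul_chi {i}
  simp only [chi_singleton] at h
  rw [h]
  have e0 : ¬ (∅ : Finset (Fin 7)) = {i} := by
    intro h; have := congrArg Finset.card h; simp at this
  have e1 : L1.count {i} = 1 := L1_count_singleton i
  have e2 : L3p.count {i} = 0 :=
    List.count_eq_zero.mpr (fun h => by have := L3p_card _ h; simp at this)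
  have e3 : L3m.count {i} = 0 :=
    List.count_eq_zero.mpr (fun h => by have := L3m_card _ h; simp at this)
  have e4 : L4.count {i} = 0 :=
    List.count_eq_zero.mpr (fun h => by have := L4_card _ h; simp at this)
  simp [e0, e1, e2, e3, e4]
  norm_num

/-- the level-one sum of `f7` is `7/4` (unnormalised: `224 = 128 * 7/4`) -/
lemma f7_lin : ∑ x, f7 x * lin x = 224 := by
  simp only [lin, Finset.mul_sum]
  rw [Finset.sum_comm]
  simp only [f7_level_one]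
  simp
  norm_num

end Vale.Agent.H13.GS
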